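import Vale.Agent.P088.R2.H660.P.Rows
import Vale.Agent.P088.R2.H858.P.CertOut
import Vale.Agent.P088.R2.H747.A.Prf
import Vale.Agent.P088.R2.H747.A.Cg
import Vale.Agent.P088.R2.H768.A.RowWd
import Vale.Agent.P088.R2.H551.E.Br
import Vale.Agent.P088.R2.H509.EP.Lit2

/-!
# P088, stage 3: the flat pass, the two certificates on the package
-/

open Set Filter
open scoped ContDiff Topology

noncomputable section

namespace Vale.Agent.P088.R2.H858.P

open Vale.Agent.P088.LR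
open Vale.Agent.P088.HY hiding dd
open Vale.Agent.P088.R2.H961.GW Vale.Agent.P088.R2.H644 Vale.Agent.P088.R2.H960.W
open Vale.Agent.P088.R2.H644.Ch (TH GA)
open Vale.Agent.P088.R2.H551.E
open Vale.Agent.P088.R2.H31.EP Vale.Agent.P088.R2.H230.W
open Vale.Agent.P088.R2.H747.A (rr lS lS₁ lS₂ D₂ ff GG NG ee hh OmB gr_ev TH_ev tc_val slow_near)
open Vale.Agent.P088.R2.H660.W (lat)
open Vale.Agent.P088.R2.H660.P

variable {n : ℕ}

/-- The sizes at a point of the pass. -/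
structure PSz (q : Cst) (d : Pk n) (z : VV n) (nw ε κ β e₂ : ℝ) : Prop where
  k0 : 0 < κ
  k1 : 5000 * κ ≤ 1
  k2 : 200 * κ ≤ β
  s1 : ε ≤ 1 / 10000000
  s2 : 100 * ε ≤ β
  t1 : 1000 * e₂ ≤ 1
  t2 : 100 * e₂ ≤ β
  G0 : 0 < GG q d z
  N0 : 0 ≤ d.N q z
  N1 : d.N q z ≤ κ * GG q d z
  nw : nw + 2 * d.N q z ≤ 2 * κ * GG q d z
  L1 : 97 / 100 ≤ lS₁ q (rr d z)
  L2 : lS₁ q (rr d z) ≤ 103 / 100
  L3 : |lS₂ q (rr d z)| ≤ e₂ * κ
  r1 : 100 ≤ rr d z
  r2 : rr d z < q.r₁ * Real.exp (-1)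
  K1 : κ * GG q d z ≤ KP q d z
  K2 : KP q d z ≤ 9 / 4 * κ * GG q d z
  P0 : 0 ≤ deriv (deriv d.Φ) (d.u q z)

section pt

variable {σ τ : Sl (VV n) (Fin n)} {q : Cst} {d : Pk n} {z : VV n} {h : Fin n → ℝ}
  {ε g κ β e₂ : ℝ}

/-- The gradient of the weight where the slow exponential is the exponential. -/
theorem gr_W (ok : σ.Ok univ 1) (hd : PkOk q d) (hop : IsOpen (OmB q d))
    (w : Wd (OmB q d) d.Φ (deriv d.Φ) (deriv (deriv d.Φ)) (lS q) (lS₁ q) (lS₂ q) (D₂ q)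
        (d.u q) (rr d))
    (heq : Set.EqOn (d.W q) (wt d.Φ (lS q) (D₂ q) (d.u q) (rr d)) (OmB q d)) (hz : z ∈ OmB q d)
    (r0 : 0 < rr d z) (r2 : rr d z < q.r₁ * Real.exp (-1)) :
    gr σ (d.W q) z = (d.N q z + GG q d z) • gr σ (d.u q) z +
      (GG q d z * lS₁ q (rr d z)) • gr σ (rr d) z := by
  have ev : d.W q =ᶠ[𝓝 z] wt d.Φ (lS q) (D₂ q) (d.u q) (rr d) :=
    heq.eventuallyEq_of_mem (hop.mem_nhds hz)
  obtain ⟨-, s01, -, -, -⟩ := slow_near hd r0 r2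
  have okB : σ.Ok (OmB q d) 1 := Ok_mono ok hop (subset_univ _)
  have s01' : D₂ q 0 1 (d.u q z + lS q (rr d z)) (rr d z) = 0 := s01
  rw [gr_ev ev, gr_wt okB w hz, s01', add_zero]
  rfl

/-- The Hessian form of the weight there. -/
theorem TH_W (ok : σ.Ok univ 1) (ot : τ.Ok univ 1) (hd : PkOk q d) (hop : IsOpen (OmB q d))
    (w : Wd (OmB q d) d.Φ (deriv d.Φ) (deriv (deriv d.Φ)) (lS q) (lS₁ q) (lS₂ q) (D₂ q)
        (d.u q) (rr d))
    (heq : Set.EqOn (d.W q) (wt d.Φ (lS q) (D₂ q) (d.u q) (rr d)) (OmB q d)) (hz : z ∈ OmB q d)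
    (r0 : 0 < rr d z) (r2 : rr d z < q.r₁ * Real.exp (-1)) (A B : Fin n → ℝ) :
    TH σ τ (d.W q) z A B = d.N q z * TH σ τ (d.u q) z A B +
      deriv (deriv d.Φ) (d.u q z) * GA σ τ (d.u q) z A B ^ 2 +
      (GG q d z * (TH σ τ (d.u q) z A B + lS₁ q (rr d z) * TH σ τ (rr d) z A B +
        lS₂ q (rr d z) * GA σ τ (rr d) z A B ^ 2)) +
      GG q d z * (GA σ τ (d.u q) z A B + lS₁ q (rr d z) * GA σ τ (rr d) z A B) ^ 2 := by
  have ev : d.W q =ᶠ[𝓝 z] wt d.Φ (lS q) (D₂ q) (d.u q) (rr d) :=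
    heq.eventuallyEq_of_mem (hop.mem_nhds hz)
  obtain ⟨s20, s01, s11, s02, -⟩ := slow_near hd r0 r2
  have okB : σ.Ok (OmB q d) 1 := Ok_mono ok hop (subset_univ _)
  have otB : τ.Ok (OmB q d) 1 := Ok_mono ot hop (subset_univ _)
  have e20 : D₂ q 2 0 (d.u q z + lS q (rr d z)) (rr d z) = GG q d z := s20
  have e01 : D₂ q 0 1 (d.u q z + lS q (rr d z)) (rr d z) = 0 := s01
  have e11 : D₂ q 1 1 (d.u q z + lS q (rr d z)) (rr d z) = 0 := s11
  have e02 : D₂ q 0 2 (d.u q z + lS q (rr d z)) (rr d z) = 0 := s02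
  have e10 : D₂ q 1 0 (d.u q z + lS q (rr d z)) (rr d z) = GG q d z := rfl
  have eN : deriv d.Φ (d.u q z) = d.N q z := rfl
  rw [TH_ev ev, TH_wt okB otB w hz A B, e20, e01, e11, e02, e10, eN]
  ring

/-- **The two certificates at a point of the pass.** -/
theorem crt_pt (ok : σ.Ok univ 1) (ot : τ.Ok univ 1) (hd : PkOk q d) (hop : IsOpen (OmB q d))
    (w : Wd (OmB q d) d.Φ (deriv d.Φ) (deriv (deriv d.Φ)) (lS q) (lS₁ q) (lS₂ q) (D₂ q)
        (d.u q) (rr d))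
    (heq : Set.EqOn (d.W q) (wt d.Φ (lS q) (D₂ q) (d.u q) (rr d)) (OmB q d)) (hz : z ∈ OmB q d)
    (G : Geo σ τ (d.u q) (rr d) (fun l => ee d l z) h ε g z) (g0 : 0 ≤ g)
    (S : PSz q d z (nn (gr σ (d.W q) z)) ε κ β e₂) (A B : Fin n → ℝ) :
    4 / 5 * KP q d z * lat h (sU σ z A) - β * κ * GG q d z * dd (sU σ z A) (sU σ z A) +
      GG q d z / 12 * dd (sU τ z B) (sU τ z B) ≤
      TH σ τ (d.W q) z A B + tc τ (cq τ (d.W q) (GG q d)) (d.W q) z B ∧
    (0 < dd (gr σ (d.W q) z) (gr σ (d.W q) z) →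
      1 / 8 * κ * GG q d z * (dd A A + dd B B) ≤ TH σ τ (d.W q) z A B +
        tc σ (cv σ (ee d) (d.W q) fun l z => -(1 / 3 * κ * GG q d z) * ee d l z) (d.W q) z A +
          tc τ (cq τ (d.W q) (GG q d)) (d.W q) z B) := by
  have r0 := G.r0
  have ε0 := G.ε0
  have e1 := gr_W ok hd hop w heq hz r0 S.r2
  have e2 := gr_W ot hd hop w heq hz r0 S.r2
  have hT := TH_W ok ot hd hop w heq hz r0 S.r2 A B
  obtain ⟨L, hL⟩ : ∃ L, L = lS₁ q (rr d z) := ⟨_, rfl⟩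
  obtain ⟨L₁, hL₁⟩ : ∃ L, L = lS₂ q (rr d z) := ⟨_, rfl⟩
  obtain ⟨G₀, hG₀⟩ : ∃ G, G = GG q d z := ⟨_, rfl⟩
  have hK : KP q d z = G₀ * L / rr d z := by rw [hG₀, hL]; rfl
  obtain ⟨k0, k1, k2, s1, s2, t1, t2, G0, N0, N1, nw, l1, l2, l3, r1, -, K1, K2, P0⟩ := S
  rw [hK] at K1 K2 ⊢
  rw [← hL, ← hG₀] at e1 e2
  rw [← hL, ← hL₁, ← hG₀] at hT
  rw [← hL] at l1 l2
  rw [← hL₁] at l3
  rw [← hG₀] at G0 N1 nw K1 K2 ⊢
  have hU := dd_self_nonneg (sU σ z A)
  have hV := dd_self_nonneg (sU τ z B)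
  have kG : 0 < κ * G₀ := by positivity
  have ga0 : 0 ≤ deriv (deriv d.Φ) (d.u q z) * GA σ τ (d.u q) z A B ^ 2 :=
    mul_nonneg P0 (sq_nonneg _)
  have gg0 : 0 ≤ (d.N q z + G₀) * g * (dd A A + dd B B) := by
    have := dd_self_nonneg A
    have := dd_self_nonneg B
    positivity
  have hLr : κ ≤ L / rr d z := by
    have h1 : G₀ * κ ≤ G₀ * (L / rr d z) := by
      rw [← mul_div_assoc]; linarith
    exact le_of_mul_le_mul_left h1 G0
  have hLr2 : L / rr d z ≤ 9 / 4 * κ := by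
    have h1 : G₀ * (L / rr d z) ≤ G₀ * (9 / 4 * κ) := by
      rw [← mul_div_assoc]; linarith
    exact le_of_mul_le_mul_left h1 G0
  have ek : e₂ * κ ≤ 1 / 1000 * κ := mul_le_mul_of_nonneg_right (by linarith) k0.le
  constructor
  · have key := cert_in_at (a := GG q d) (w₀ := κ) (Φ₂ := deriv (deriv d.Φ) (d.u q z))
      (L₁ := L₁) G s1 G0 (by linarith) (by linarith) r1 (by linarith) N0 N1 (by linarith)
      e1 e2 (by linarith) hG₀.symm A B hT
    have a1 : 28 * (G₀ * κ ^ 2) ≤ 28 / 200 * (β * κ * G₀) := by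
      have := mul_le_mul_of_nonneg_right k2 kG.le
      calc 28 * (G₀ * κ ^ 2) = 28 / 200 * (200 * κ * (κ * G₀)) := by ring
        _ ≤ 28 / 200 * (β * (κ * G₀)) := mul_le_mul_of_nonneg_left this (by norm_num)
        _ = _ := by ring
    have a2 : 3 * (G₀ * |L₁|) ≤ 3 / 100 * (β * κ * G₀) := by
      have h1 : e₂ * κ ≤ β / 100 * κ := mul_le_mul_of_nonneg_right (by linarith) k0.le
      have h2 := mul_le_mul_of_nonneg_left (l3.trans h1) G0.le
      linarith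
    have a3 : 9 * (G₀ * ε / rr d z) ≤ 27 / 100 * (β * κ * G₀) := by
      have h1 : (rr d z)⁻¹ ≤ 3 * κ := by
        have : L / rr d z = L * (rr d z)⁻¹ := div_eq_mul_inv _ _
        have h2 : 97 / 100 * (rr d z)⁻¹ ≤ L * (rr d z)⁻¹ :=
          mul_le_mul_of_nonneg_right l1 (inv_nonneg.2 r0.le)
        linarith
      have h2 : G₀ * ε / rr d z = G₀ * ε * (rr d z)⁻¹ := div_eq_mul_inv _ _
      have h3 : G₀ * ε * (rr d z)⁻¹ ≤ G₀ * ε * (3 * κ) :=
        mul_le_mul_of_nonneg_left h1 (by positivity)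
      have h4 : ε * (κ * G₀) ≤ β / 100 * (κ * G₀) :=
        mul_le_mul_of_nonneg_right (by linarith) kG.le
      rw [h2]
      linarith
    have a4 := mul_le_mul_of_nonneg_right (add_le_add (add_le_add a1 a2) a3) hU
    have β0 : 0 ≤ β := by linarith
    have a5 : 0 ≤ β * κ * G₀ * dd (sU σ z A) (sU σ z A) := by positivity
    linarith
  · intro hpos
    have key := certOut σ τ (d.u q) (rr d) (d.W q) (GG q d) (fun l => ee d l z) h z ε g G₀
      (d.N q z) (deriv (deriv d.Φ) (d.u q z)) L L₁ κ (1 / 3 * κ)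
      (fun l z => -(1 / 3 * κ * GG q d z) * ee d l z) G s1 G0 (by linarith) (by linarith) r1 N0
      N1 (by linarith) (by
        have : 5000 * κ ^ 2 = 5000 * κ * κ := by ring
        have h1 : 5000 * κ * κ ≤ 1 * κ := mul_le_mul_of_nonneg_right k1 k0.le
        linarith) (by linarith) (by linarith) (by linarith) (by linarith) e1 e2 (by linarith)
      hG₀.symm hpos (fun l => by rw [hG₀]) A B hT
    have et : tc σ (cf σ (fun l => ee d l z) (d.W q)
        (fun l z => -(1 / 3 * κ * GG q d z) * ee d l z)) (d.W q) z A =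
        tc σ (cv σ (ee d) (d.W q) fun l z => -(1 / 3 * κ * GG q d z) * ee d l z) (d.W q) z A :=
      tc_val (fun l => rfl) A
    rw [et] at key
    have up : ∀ {U A : Fin n → ℝ}, nn (U - A) ≤ ε * nn A → dd A A ≤ 101 / 100 * dd U U := by
      intro U A hA
      obtain ⟨u1, u2⟩ := up_A (by linarith : ε ≤ 1 / 2) hA
      have h1 := nn_le_add A U
      have hn := nn_nonneg U
      have h2 : 2 * ε * nn U ≤ 1 / 1000 * nn U := mul_le_mul_of_nonneg_right (by linarith) hn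
      have h3 : nn A ≤ 1001 / 1000 * nn U := by linarith
      have h4 := pow_le_pow_left₀ (nn_nonneg A) h3 2
      rw [nn_sq, mul_pow, nn_sq] at h4
      have := dd_self_nonneg U
      linarith
    have uA := up (G.nx A)
    have uB := up (G.ny B)
    have b1 : κ * G₀ * dd A A ≤ κ * G₀ * (101 / 100 * dd (sU σ z A) (sU σ z A)) :=
      mul_le_mul_of_nonneg_left uA kG.le
    have b2 : κ * G₀ * dd B B ≤ κ * G₀ * (101 / 100 * dd (sU τ z B) (sU τ z B)) :=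
      mul_le_mul_of_nonneg_left uB kG.le
    have b3 : κ * (G₀ * dd (sU τ z B) (sU τ z B)) ≤ 1 / 5000 * (G₀ * dd (sU τ z B) (sU τ z B)) :=
      mul_le_mul_of_nonneg_right (by linarith) (by positivity)
    have b4 : 0 ≤ κ * G₀ * dd (sU σ z A) (sU σ z A) := by positivity
    have b5 : 0 ≤ G₀ * dd (sU τ z B) (sU τ z B) := by positivity
    linarith

end pt

/-! ## The row -/

theorem p_r₁ : EvC fun q => (0 < q.p₁ ∧ 2 * q.p₁ + 1 < q.r₁ * Real.exp (-1)) := by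
  have h1 := EvC.at_M₀ (fun q t => 0 < q.c' → 2 * q.p₁ + 1 < q.c' * t / 2 * Real.exp (-1))
    fun q => by
      by_cases hc : 0 < q.c'
      · have e0 : 0 < Real.exp (-1) := Real.exp_pos _
        filter_upwards [eventually_gt_atTop ((2 * q.p₁ + 1) / (q.c' / 2 * Real.exp (-1)))] with t ht _
        rw [div_lt_iff₀ (by positivity)] at ht
        linarith
      · exact Eventually.of_forall fun t h => absurd h hc
  refine ((h1.and EvC.rad).and EvC.pos).mono fun q h => ?_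
  obtain ⟨⟨a1, a2⟩, -, ⟨-, -, a3, -⟩, -⟩ := h
  exact ⟨one_pos.trans_le (Cst.p₁_ge a2), a1 a3⟩

/-- **Row P-CRT** from the rows P-BAS and P-SZ. -/
theorem rowPCrt (n : ℕ) (hB : RowPBas n) (hS : RowPSz n) : RowPCrt n := by
  intro β nβ β0
  have pe₂ : ∀ q, 0 < min (β q / 200) (1 / 5000) := fun q =>
    lt_min (by have := β0 q; positivity) (by norm_num)
  have pε₁ : ∀ q, 0 < min (β q / 100) (1 / 10000000) := fun q =>
    lt_min (by have := β0 q; positivity) (by norm_num)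
  have nσ : ∀ q : Cst, β q.b_σ = β q := fun q => by
    rw [← nβ q.b_σ, ← nβ q]
    rfl
  have h1 := hS (fun _ => 1) (fun q => min (β q / 200) (1 / 5000)) (fun _ => rfl)
    (fun q => by show min (β q.b_e₁ / 200) _ = _; rw [nβ q]) pe₂
  have h2 := hB (fun _ => 1) (fun q => min (β q / 100) (1 / 10000000)) (fun _ => rfl)
    (fun q => by show min (β q.b_σ / 100) _ = _; rw [nσ q]) (fun _ => one_pos) pε₁
  refine ((((h1.and h2).and (H768.A.rowWd n)).and p_r₁).and EvC.pos).mono fun q h => ?_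
  obtain ⟨⟨⟨⟨⟨k0, ke, hS⟩, hB⟩, hW⟩, p0, p1⟩, -, ⟨-, s0, -⟩, -, -, -, -, -, R1⟩ := h
  intro d hd b z hz A B
  obtain ⟨-, a2, a3, a4, a5, a6, a7, a8, a9, a10, a11, -⟩ := hS d hd b z hz
  obtain ⟨-, -, -, -, -, c6⟩ := hB d hd b
  obtain ⟨-, -, -, -, -, G⟩ := c6 z hz
  obtain ⟨hop, w, heq⟩ := hW d hd
  have hzB := hz.1
  have ks := (le_min_iff.1 ke)
  have r2 : rr d z < q.r₁ * Real.exp (-1) := by
    have : rr d z < 2 * q.p₁ + 1 := (Real.sqrt_lt' (by linarith)).2 hz.2.2.1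
    linarith
  have S : PSz q d z (nn (gr (sP d b) (d.W q) z)) (min (β q / 100) (1 / 10000000)) (kP q) (β q)
      (min (β q / 200) (1 / 5000)) := by
    have m1 := min_le_left (β q / 200) (1 / 5000)
    have m2 := min_le_right (β q / 200) (1 / 5000)
    have m3 := min_le_left (β q / 100) (1 / 10000000)
    have m4 := min_le_right (β q / 100) (1 / 10000000)
    have m5 := β0 q
    have m6 : 1 ≤ GG q d z := by have := hS d hd b z hz; exact this.1
    exact ⟨k0, by linarith [ks.2], by linarith [ks.1], m4, by linarith, by linarith, by linarith,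
      by linarith, a2, a3, a4, a5, a6, a7, a8, r2, a9, a10, a11⟩
  have g0 : 0 ≤ q.σ / (40 * q.R) := by
    have : 0 < q.R := one_pos.trans_le R1
    positivity
  cases b with
  | true => exact crt_pt (fx_ok hd.rg.sm₁ hd.rg.sy₁ isOpen_univ) (fy_ok hd.rg.sm₂ hd.rg.sy₂
      isOpen_univ) hd hop w heq hzB G g0 S A B
  | false => exact crt_pt (fy_ok hd.rg.sm₂ hd.rg.sy₂ isOpen_univ) (fx_ok hd.rg.sm₁ hd.rg.sy₁
      isOpen_univ) hd hop w heq hzB G g0 S A B

end Vale.Agent.P088.R2.H858.P
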