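import Vale.Agent.P088.R2.H551.E.Cur
import Vale.Agent.P088.R2.H660.P.Let
import Vale.Agent.P088.R2.H281.P.PGeo
import Vale.Agent.P088.R2.H551.E.Br

/-!
# P088, stage 3: the zone inequality with exchanged slots
-/

open MeasureTheory Set Filter
open scoped ContDiff Topology

noncomputable section

namespace Vale.Agent.P088.R2.H858.P

open Vale.Agent.P088.R2.H961.GW Vale.Agent.P088.R2.H960.W Vale.Agent.P088.R2.H644
  Vale.Agent.P088.R2.H551.E Vale.Agent.P088.R2.H660.P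

variable {E ι : Type*} [NormedAddCommGroup E] [NormedSpace ℝ E] [Fintype ι]

/-- The letters with exchanged slots. -/
def swp (q : Q8 E) : Q8 E where
  κ := q.κ
  ζ₁ := q.ζ₂
  ζ₂ := q.ζ₁
  ζy := q.ζy
  w₁ := q.w₂
  w₂ := q.w₁
  wb := q.wb
  wc := q.wc

variable {σ τ : Sl E ι} {U : Set E} {θ v₁ v₂ W χ a b : E → ℝ} {z : E}

theorem sqd_swap : sqd τ σ v₂ v₁ W b a z = sqd σ τ v₁ v₂ W a b z := by
  unfold sqd; ring

theorem nY_swap : nY τ σ W b a z = nY σ τ W a b z := by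
  unfold nY
  exact Finset.sum_congr rfl fun i _ => by ring

theorem dens_swap (q : Q8 E) : q.dens τ σ v₂ v₁ W b a z = (swp q).dens σ τ v₁ v₂ W a b z := by
  unfold Q8.dens swp
  rw [sqd_swap, nY_swap]
  ring

theorem qs_swap (ok : σ.Ok U θ) (ot : τ.Ok U θ) (c : Cm σ τ U) (hW : Sm U W) (hz : z ∈ U) :
    qs τ σ v₂ v₁ W b a z = qs σ τ v₁ v₂ W a b z := by
  unfold qs
  rw [M2_swap ok ot c hW hW hz, L_L ok ot c hW hz]
  ring

theorem dn_swap (ok : σ.Ok U θ) (ot : τ.Ok U θ) (c : Cm σ τ U) (hW : Sm U W) (hz : z ∈ U) :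
    dn τ σ v₂ v₁ W b a z = dn σ τ v₁ v₂ W a b z := by
  unfold dn sta
  rw [sqd_swap, qs_swap ok ot c hW hz, H281.P.TH_swap c hW hz]

variable [MeasureSpace E] [BorelSpace E]

/-- **The zone inequality with exchanged slots.** -/
theorem zone_swap (ok : σ.Ok U θ) (ot : τ.Ok U θ) (c : Cm σ τ U) (hW : Sm U W) {mg co : Q8 E}
    (h : Zone τ σ U θ v₂ v₁ W χ mg co) : Zone σ τ U θ v₁ v₂ W χ (swp mg) (swp co) := by
  intro a b ha hb
  have key := h b a hb ha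
  have e1 : In U θ (mg.dens τ σ v₂ v₁ W b a) = In U θ ((swp mg).dens σ τ v₁ v₂ W a b) := by
    congr 1
    funext z
    exact dens_swap mg
  have e2 : In U θ (co.dens τ σ v₂ v₁ W b a) = In U θ ((swp co).dens σ τ v₁ v₂ W a b) := by
    congr 1
    funext z
    exact dens_swap co
  have e3 : (In U θ fun z => χ z ^ 2 * dn τ σ v₂ v₁ W b a z) =
      In U θ fun z => χ z ^ 2 * dn σ τ v₁ v₂ W a b z := by
    unfold In
    refine setIntegral_congr_fun ok.op.measurableSet fun z hz => ?_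
    show θ z * (χ z ^ 2 * dn τ σ v₂ v₁ W b a z) = θ z * (χ z ^ 2 * dn σ τ v₁ v₂ W a b z)
    rw [dn_swap ok ot c hW hz]
  rw [← e1, ← e2, ← e3]
  exact key

omit [Fintype ι] [MeasureSpace E] [BorelSpace E] in
theorem swp_MP [Fintype ι] (σ τ : Sl E ι) (W G : E → ℝ) (ρ₁ : ℝ) :
    swp (MP τ σ W G ρ₁) = MPm σ τ W G ρ₁ := rfl

omit [Fintype ι] [MeasureSpace E] [BorelSpace E] in
theorem swp_coP [Fintype ι] (σ τ : Sl E ι) (W G om : E → ℝ) (C : ℝ) :
    swp (coP τ σ W G om C) = coPm σ τ W G om C := rfl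

omit [NormedAddCommGroup E] [NormedSpace ℝ E] [MeasureSpace E] [BorelSpace E] in
theorem swp_sm (q : Q8 E) (f : E → ℝ) : swp (q.sm f) = (swp q).sm f := rfl

/-! ## The package -/

open Vale.Agent.P088.R2.H31.EP Vale.Agent.P088.HY

/-- **The leaf `P2` from the inequality with exchanged slots.** -/
theorem mir_pk {n : ℕ} {q : Cst} {d : Pk n} (hd : PkOk q d) (hW : Sm univ (d.W q))
    {χ G om : VV n → ℝ} {ρ₁ C : ℝ}
    (h : Zone d.sy d.sx univ 1 0 0 (d.W q) χ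
      ((MP d.sy d.sx (d.W q) G ρ₁).sm fun z => χ z ^ 2) (coP d.sy d.sx (d.W q) G om C)) :
    d.Zone q χ ((MPm d.sx d.sy (d.W q) G ρ₁).sm fun z => χ z ^ 2)
      (coPm d.sx d.sy (d.W q) G om C) := by
  have ok : d.sx.Ok univ 1 := fx_ok hd.rg.sm₁ hd.rg.sy₁ isOpen_univ
  have ot : d.sy.Ok univ 1 := fy_ok hd.rg.sm₂ hd.rg.sy₂ isOpen_univ
  have key := zone_swap ok ot (H281.P.cm_pk hd isOpen_univ) hW h
  rw [swp_sm, swp_MP, swp_coP] at key
  exact key

end Vale.Agent.P088.R2.H858.P
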